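import Vale.Agent.P078.AllMasa.Core

/-! A linear functional pinched between multiples of the integral has an approximate density. -/

namespace Vale.Agent.P078.AllMasa

set_option linter.unusedSectionVars false

open Filter Topology ComplexOrder
open Vale.Agent.P078.Tracial

variable {M X : Type} [CStarAlgebra M] [PartialOrder M] [StarOrderedRing M]
variable [TopologicalSpace X] [CompactSpace X] [T2Space X] [TotallyDisconnectedSpace X]

/-- The linear functional has a density up to a small error. -/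
theorem SCore.exists_density (C : SCore M X) (Φ : C(X, ℝ) →ₗ[ℝ] ℝ) {lo hi δ ε : ℝ} (hlo : 0 ≤ lo)
    (hlh : lo ≤ hi) (hδ : 0 ≤ δ) (hε : 0 < ε)
    (hl : ∀ g : C(X, ℝ), (∀ x, 0 ≤ g x ∧ g x ≤ 1) → lo * C.ig g ≤ Φ g)
    (hu : ∀ g : C(X, ℝ), (∀ x, 0 ≤ g x ∧ g x ≤ 1) → Φ g ≤ hi * C.ig g + δ) :
    ∃ p : C(X, ℝ), (∀ x, lo ≤ p x ∧ p x ≤ hi) ∧
      ∀ g : C(X, ℝ), (∀ x, 0 ≤ g x ∧ g x ≤ 1) → |Φ g - C.ig (p * g)| ≤ δ + ε := by
  have hhi : 0 ≤ hi := hlo.trans hlh
  set J : C(X, ℝ) → ℝ := fun q => 1 / 2 * C.ig (q * q) - Φ q with hJ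
  set A := {q : C(X, ℝ) | ∀ x, lo ≤ q x ∧ q x ≤ hi} with hA
  have hne : A.Nonempty :=
    ⟨ContinuousMap.const X lo, fun x => by simp [hlh]⟩
  have hbd : BddBelow (J '' A) := by
    refine ⟨-((hi + 1) * (hi + δ)), ?_⟩
    rintro v ⟨q, hq, rfl⟩
    have h1 := C.ig_nonneg (f := q * q) (ContinuousMap.le_def.2 fun x => by
      simpa using mul_self_nonneg (q x))
    have hh1 : (0 : ℝ) < hi + 1 := by linarith
    have hr : ∀ x, 0 ≤ ((hi + 1)⁻¹ • q) x ∧ ((hi + 1)⁻¹ • q) x ≤ 1 := fun x => by
      simp only [ContinuousMap.smul_apply, smul_eq_mul]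
      refine ⟨mul_nonneg (inv_nonneg.2 hh1.le) (hlo.trans (hq x).1), ?_⟩
      rw [inv_mul_le_iff₀ hh1]
      linarith [(hq x).2]
    have h2 := hu _ hr
    have h3 : hi * C.ig ((hi + 1)⁻¹ • q) ≤ hi * 1 :=
      mul_le_mul_of_nonneg_left (C.ig_le_of_le fun x => (hr x).2) hhi
    rw [map_smul, smul_eq_mul] at h2
    have h4 : Φ q ≤ (hi + 1) * (hi + δ) := by
      rw [← inv_mul_le_iff₀ hh1]
      linarith
    simp only [hJ]
    linarith
  set τ := ε / 2 with hτ
  have hτ0 : 0 < τ := by positivity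
  set e := τ * τ with he
  have he0 : 0 < e := by positivity
  set σ := min 1 (e / (hi ^ 2 + 1)) with hσ
  have hσ0 : 0 < σ := lt_min one_pos (by positivity)
  obtain ⟨_, ⟨p, hp, rfl⟩, hpmin⟩ := exists_lt_of_csInf_lt (hne.image J)
    (lt_add_of_pos_right (sInf (J '' A)) (show 0 < σ * σ by positivity))
  refine ⟨p, hp, ?_⟩
  -- the first variation
  have hvar : ∀ q ∈ A, Φ (q - p) - C.ig (p * (q - p)) ≤ e := fun q hq => by
    have hm : p + σ • (q - p) ∈ A := fun x => by
      obtain ⟨a1, a2⟩ := hp x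
      obtain ⟨b1, b2⟩ := hq x
      have hs1 : σ ≤ 1 := min_le_left _ _
      simp only [ContinuousMap.add_apply, ContinuousMap.smul_apply, ContinuousMap.sub_apply,
        smul_eq_mul]
      constructor
      · linarith [mul_nonneg hσ0.le (sub_nonneg.2 b1), mul_nonneg (sub_nonneg.2 hs1) (sub_nonneg.2 a1)]
      · linarith [mul_nonneg hσ0.le (sub_nonneg.2 b2), mul_nonneg (sub_nonneg.2 hs1) (sub_nonneg.2 a2)]
    have h1 : J p ≤ J (p + σ • (q - p)) + σ * σ := by
      linarith [csInf_le hbd ⟨_, hm, rfl⟩]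
    set h := q - p with hh
    have hexp : J (p + σ • h) = J p + σ * (C.ig (p * h) - Φ h) + σ ^ 2 / 2 * C.ig (h * h) := by
      have hsq : (p + σ • h) * (p + σ • h) = p * p + (2 * σ) • (p * h) + σ ^ 2 • (h * h) := by
        ext x
        simp
        ring
      simp only [hJ, hsq, C.ig_add, C.ig_smul, map_add, map_smul, smul_eq_mul]
      ring
    have h2 : C.ig (h * h) ≤ hi ^ 2 := C.ig_le_of_le fun x => by
      obtain ⟨a1, a2⟩ := hp x
      obtain ⟨b1, b2⟩ := hq x
      rw [ContinuousMap.mul_apply, ← sq, show h x = q x - p x from rfl]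
      exact sq_le_sq' (by linarith) (by linarith)
    have h3 : σ * (hi ^ 2 + 1) ≤ e := (le_div_iff₀ (by positivity)).1 (min_le_right _ _)
    have h4 := mul_le_mul_of_nonneg_left h2 (show 0 ≤ σ ^ 2 / 2 by positivity)
    have h5 : 0 ≤ σ * (C.ig (p * h) - Φ h + σ * (hi ^ 2 + 1)) := by
      have : 0 ≤ σ ^ 2 * hi ^ 2 := by positivity
      linarith
    have h6 := nonneg_of_mul_nonneg_right h5 hσ0
    linarith
  intro g hg
  rw [abs_le]
  -- splitting by the distance to a bound
  have hsplit : ∀ u : C(X, ℝ), (∀ x, 0 ≤ u x) → ∃ k g1 : C(X, ℝ), g = g1 + (τ⁻¹) • (u * k) ∧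
      (∀ x, 0 ≤ k x ∧ k x ≤ 1) ∧ (∀ x, 0 ≤ g1 x ∧ g1 x ≤ g x) ∧ ∀ x, u x * g1 x ≤ τ * g1 x :=
    fun u hu0 => by
      set k : C(X, ℝ) := g * ⟨fun x => τ / max (u x) τ,
        continuous_const.div ((map_continuous u).max continuous_const)
          fun x => (lt_max_of_lt_right hτ0).ne'⟩ with hk
      have hkx : ∀ x, k x = g x * (τ / max (u x) τ) := fun x => rfl
      refine ⟨k, g - τ⁻¹ • (u * k), (sub_add_cancel _ _).symm, fun x => ?_, fun x => ?_, fun x => ?_⟩
      all_goals have hm : 0 < max (u x) τ := lt_max_of_lt_right hτ0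
      · rw [hkx]
        have h1 : τ / max (u x) τ ≤ 1 := by rw [div_le_one hm]; exact le_max_right _ _
        exact ⟨mul_nonneg (hg x).1 (by positivity), mul_le_one₀ (hg x).2 (by positivity) h1⟩
      · simp only [ContinuousMap.sub_apply, ContinuousMap.smul_apply, ContinuousMap.mul_apply,
          smul_eq_mul, hkx]
        have e1 : τ⁻¹ * (u x * (g x * (τ / max (u x) τ))) = g x * (u x / max (u x) τ) := by
          field_simp
        rw [e1]
        have h1 : u x / max (u x) τ ≤ 1 := by rw [div_le_one hm]; exact le_max_left _ _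
        have h2 : 0 ≤ g x * (u x / max (u x) τ) :=
          mul_nonneg (hg x).1 (div_nonneg (hu0 x) hm.le)
        have h3 := mul_le_of_le_one_right (hg x).1 h1
        exact ⟨by linarith, by linarith⟩
      · simp only [ContinuousMap.sub_apply, ContinuousMap.smul_apply, ContinuousMap.mul_apply,
          smul_eq_mul, hkx]
        rcases le_total (u x) τ with h1 | h1
        · refine mul_le_mul_of_nonneg_right h1 ?_
          rw [max_eq_right h1, div_self hτ0.ne', mul_one]
          have : τ⁻¹ * (u x * g x) ≤ g x := by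
            rw [← mul_assoc]
            refine mul_le_of_le_one_left (hg x).1 ?_
            rw [inv_mul_le_iff₀ hτ0, mul_one]
            exact h1
          linarith
        · have e1 : g x - τ⁻¹ * (u x * (g x * (τ / max (u x) τ))) = 0 := by
            rw [max_eq_left h1]
            have : 0 < u x := hτ0.trans_le h1
            field_simp
            ring
          rw [e1]
          simp
  have hle1 : ∀ g1 : C(X, ℝ), (∀ x, 0 ≤ g1 x ∧ g1 x ≤ g x) → C.ig g1 ≤ 1 := fun g1 h1 =>
    C.ig_le_of_le fun x => (h1 x).2.trans (hg x).2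
  have heτ : τ⁻¹ * e = τ := by rw [he]; field_simp
  constructor
  · -- below
    obtain ⟨k, g1, hgg, hk, hg1, hu1⟩ := hsplit (p - ContinuousMap.const X lo)
      fun x => by simp [(hp x).1]
    set u := p - ContinuousMap.const X lo with hu2
    have hq : p - u * k ∈ A := fun x => by
      obtain ⟨a1, a2⟩ := hp x
      simp only [hu2, ContinuousMap.sub_apply, ContinuousMap.mul_apply, ContinuousMap.const_apply]
      constructor
      · linarith [mul_nonneg (sub_nonneg.2 a1) (sub_nonneg.2 (hk x).2)]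
      · linarith [mul_nonneg (sub_nonneg.2 a1) (hk x).1]
    have h1 := hvar _ hq
    rw [show p - u * k - p = -(u * k) by abel, map_neg, mul_neg, C.ig_neg] at h1
    have h2 := hl g1 fun x => ⟨(hg1 x).1, (hg1 x).2.trans (hg x).2⟩
    have h3 : C.ig (p * g1) ≤ (lo + τ) * C.ig g1 := by
      rw [← C.ig_smul]
      refine C.ig_mono (ContinuousMap.le_def.2 fun x => ?_)
      have := hu1 x
      simp only [hu2, ContinuousMap.sub_apply, ContinuousMap.mul_apply, ContinuousMap.const_apply,
        ContinuousMap.smul_apply, smul_eq_mul] at this ⊢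
      linarith
    have h4 := mul_le_mul_of_nonneg_left (hle1 g1 hg1) hτ0.le
    have h5 := mul_le_mul_of_nonneg_left h1 (inv_nonneg.2 hτ0.le)
    rw [heτ] at h5
    rw [hgg, map_add, map_smul, mul_add, mul_smul_comm, C.ig_add, C.ig_smul, smul_eq_mul]
    linarith
  · -- above
    obtain ⟨k, g1, hgg, hk, hg1, hu1⟩ := hsplit (ContinuousMap.const X hi - p)
      fun x => by simp [(hp x).2]
    set u := ContinuousMap.const X hi - p with hu2
    have hq : p + u * k ∈ A := fun x => by
      obtain ⟨a1, a2⟩ := hp x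
      simp only [hu2, ContinuousMap.add_apply, ContinuousMap.sub_apply, ContinuousMap.mul_apply,
        ContinuousMap.const_apply]
      constructor
      · linarith [mul_nonneg (sub_nonneg.2 a2) (hk x).1]
      · linarith [mul_nonneg (sub_nonneg.2 a2) (sub_nonneg.2 (hk x).2)]
    have h1 := hvar _ hq
    rw [add_sub_cancel_left] at h1
    have h2 := hu g1 fun x => ⟨(hg1 x).1, (hg1 x).2.trans (hg x).2⟩
    have h3 : (hi - τ) * C.ig g1 ≤ C.ig (p * g1) := by
      rw [← C.ig_smul]
      refine C.ig_mono (ContinuousMap.le_def.2 fun x => ?_)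
      have := hu1 x
      simp only [hu2, ContinuousMap.sub_apply, ContinuousMap.mul_apply, ContinuousMap.const_apply,
        ContinuousMap.smul_apply, smul_eq_mul] at this ⊢
      linarith
    have h4 := mul_le_mul_of_nonneg_left (hle1 g1 hg1) hτ0.le
    have h5 := mul_le_mul_of_nonneg_left h1 (inv_nonneg.2 hτ0.le)
    rw [heτ] at h5
    rw [hgg, map_add, map_smul, mul_add, mul_smul_comm, C.ig_add, C.ig_smul, smul_eq_mul]
    linarith

end Vale.Agent.P078.AllMasa
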