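import Vale.Agent.P078.AllMasa.Stationary.Calc

/-! The three moves at an approximate minimiser: transfer of budget between two colours, an
increase of the slack and an increase of the inverse resolvent. -/

namespace Vale.Agent.P078.AllMasa

set_option linter.unusedSectionVars false

open Filter Topology ComplexOrder
open Vale.Agent.P078.Tracial

variable {M X : Type} [CStarAlgebra M] [PartialOrder M] [StarOrderedRing M]
variable [TopologicalSpace X] [CompactSpace X] [T2Space X] [TotallyDisconnectedSpace X]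
variable {P : Prm M} {C : SCore M X}

namespace Prm

theorem VG_add (s : Col M X) (a b : M) : P.VG C s (a + b) = P.VG C s a + P.VG C s b := by
  simp only [Prm.VG, mul_add, add_mul, C.tr_add]

theorem VG_smul (s : Col M X) (c : ℝ) (a : M) : P.VG C s (c • a) = c * P.VG C s a := by
  simp only [Prm.VG, mul_smul_comm, smul_mul_assoc, C.tr_smul]
  ring

theorem VW_add (s : Col M X) (f g : C(X, ℝ)) : P.VW C s (f + g) = P.VW C s f + P.VW C s g := by
  simp only [Prm.VW, C.r_add, VG_add, C.ig_add]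
  ring

theorem VW_smul (s : Col M X) (c : ℝ) (f : C(X, ℝ)) : P.VW C s (c • f) = c * P.VW C s f := by
  simp only [Prm.VW, C.r_smul, VG_smul, C.ig_smul]
  ring

theorem VW_sum {α : Type*} (s : Col M X) (t : Finset α) (f : α → C(X, ℝ)) :
    P.VW C s (∑ i ∈ t, f i) = ∑ i ∈ t, P.VW C s (f i) :=
  map_sum (AddMonoidHom.mk' (P.VW C s) (VW_add s)) f t

theorem VG_nonneg {s : Col M X} (hs : s.Ok P C) {a : M} (ha : 0 ≤ a) : 0 ≤ P.VG C s a :=
  mul_nonneg (sq_nonneg _)
    (C.tr_nonneg ((IsSelfAdjoint.of_nonneg hs.mat_pos.ringInverse.nonneg).conjugate_nonneg ha))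

theorem l_ig_le_VW {s : Col M X} (hs : s.Ok P C) {f : C(X, ℝ)} (hf : 0 ≤ f) :
    P.l * C.ig f ≤ P.VW C s f :=
  le_add_of_nonneg_left (VG_nonneg hs (C.r_nonneg hf))

theorem VG_le_norm {s : Col M X} (hs : s.Ok P C) (hg : P.Good C s) {a : M}
    (ha : IsSelfAdjoint a) : P.VG C s a ≤ ‖a‖ := by
  have he := P.eP_pos
  have hR0 : 0 ≤ P.R C s := hs.mat_pos.ringInverse.nonneg
  have hsa : IsStrictlyPositive (algebraMap ℝ M P.eP) :=
    ⟨algebraMap_nonneg M he.le, (Ne.isUnit he.ne').map (algebraMap ℝ M)⟩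
  have h1 := CStarAlgebra.ringInverse_le_ringInverse hg.mat_ge hsa
  rw [show algebraMap ℝ M P.eP = ((Units.map (algebraMap ℝ M).toMonoidHom
    (Units.mk0 P.eP he.ne') : Mˣ) : M) from rfl, Ring.inverse_unit] at h1
  have hRn : ‖P.R C s‖ ≤ P.eP⁻¹ :=
    norm_le_of_le_algebraMap₀ (inv_nonneg.2 he.le) hR0 (by simpa [Prm.R] using h1)
  have h2 := C.tr_le_norm (ha.conjugate_self (IsSelfAdjoint.of_nonneg hR0))
  have h3 : ‖P.R C s * a * P.R C s‖ ≤ P.eP⁻¹ * ‖a‖ * P.eP⁻¹ :=
    norm_mul₃_le.trans (by gcongr)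
  calc P.VG C s a ≤ P.eP ^ 2 * (P.eP⁻¹ * ‖a‖ * P.eP⁻¹) :=
        mul_le_mul_of_nonneg_left (h2.trans h3) (sq_nonneg _)
    _ = ‖a‖ := by field_simp

/-- The margin of the weights inside the window. -/
noncomputable def margin (P : Prm M) : ℝ := min (4 * P.t ^ 4) (1 / P.b1)

theorem margin_pos (P : Prm M) : 0 < P.margin :=
  lt_min (by have := P.t_pos; positivity) (by have := P.b1_pos; positivity)

end Prm

/-- A small change of the weight of a good colour on the active set. -/
theorem weight_shift {s : Col M X} (hs : s.Ok P C) (hg : P.Good C s) {δ : C(X, ℝ)}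
    (hsup : s.act * δ = δ) (hδ : ∀ x, |δ x| ≤ P.margin) :
    (∀ x, P.Wlo ≤ (s.W + δ) x ∧ (s.W + δ) x ≤ P.Wa) ∧
      ∀ x, s.act x = 1 → FP P.κ (1 - s.W x) + δ x * P.Dc s x ≤ FP P.κ (1 - (s.W + δ) x) := by
  have ht : 0 < P.t ^ 4 := pow_pos P.t_pos 4
  have hb : ∀ x, |δ x| ≤ 4 * P.t ^ 4 ∧ |δ x| ≤ 1 / P.b1 := fun x =>
    ⟨(hδ x).trans (min_le_left _ _), (hδ x).trans (min_le_right _ _)⟩
  refine ⟨fun x => ?_, fun x hx => ?_⟩
  · simp only [ContinuousMap.add_apply]
    rcases hs.act_01 x with hx | hx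
    · have : δ x = 0 := by
        have := congrArg (fun f : C(X, ℝ) => f x) hsup
        simp [hx] at this
        linarith
      rw [this, add_zero]
      exact hs.W_mem x
    · have h1 := Prm.Wlo_lt hs hx
      have h2 := hg.high x hx
      have h3 := abs_le.1 (hb x).1
      have h4 := abs_le.1 (hb x).2
      simp only [Prm.Wm, Prm.ξm, Prm.Wa, Prm.ξa] at h2 ⊢
      constructor <;> linarith
  · have h2 := hg.high x hx
    have h3 := abs_le.1 (hb x).1
    simp only [Prm.Wm, Prm.ξm] at h2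
    have hxi : P.xi s x = 1 - s.W x :=
      max_eq_left (by simp only [Prm.ξa]; linarith)
    have h5 := FP_tangent (ξ := 1 - s.W x) (ξ' := 1 - (s.W x + δ x)) P.κ_pos.le (by linarith)
      (by linarith)
    have hD : P.Dc s x = DP P.κ (1 - s.W x) := by
      show DP P.κ (P.xi s x) = _
      rw [hxi]
    simp only [ContinuousMap.add_apply]
    rw [hD]
    linarith

theorem wt_shift {s : Col M X} (hs : s.Ok P C) {δ : C(X, ℝ)} (hsup : s.act * δ = δ)
    (b : C(X, ℝ)) (G : Mˣ) (Z : M) :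
    P.wt (⟨s.act, s.ass, b, s.W + δ, G, Z⟩ : Col M X) = P.wt s + δ := by
  ext x
  have hx' := congrArg (fun f : C(X, ℝ) => f x) hsup
  simp only [ContinuousMap.mul_apply] at hx'
  rcases hs.act_01 x with hx | hx
  · rw [hx, zero_mul] at hx'
    simp [Prm.wt, hx, ← hx']
  · simp [Prm.wt, hx, hs.act_ass x hx]

/-- The potential after a small change of one good colour. -/
theorem col_step {s : Col M X} (hs : s.Ok P C) (hg : P.Good C s) {δ : C(X, ℝ)}
    (hsup : s.act * δ = δ) (b : C(X, ℝ)) (G : Mˣ) (Z : M) {Y : M} {N : ℝ}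
    (hY : Y = ((↑G⁻¹ : M) - ↑s.G⁻¹) + C.r δ - (Z - s.Z))
    (hYsa : IsSelfAdjoint Y) (hN : ‖Y‖ ≤ N) (hNe : N ≤ P.eP / 2) :
    IsStrictlyPositive (P.mat C (⟨s.act, s.ass, b, s.W + δ, G, Z⟩ : Col M X)) ∧
      P.pot C (⟨s.act, s.ass, b, s.W + δ, G, Z⟩ : Col M X) - P.pot C s ≤
        C.tr (Z - s.Z) + P.ν * (C.tr (G : M) - C.tr (s.G : M)) + P.VG C s Y + P.l * C.ig δ
          + 2 / P.eP * N ^ 2 := by
  have hw := wt_shift hs hsup b G Z
  have hm : P.mat C (⟨s.act, s.ass, b, s.W + δ, G, Z⟩ : Col M X) = P.mat C s - Y := by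
    simp only [Prm.mat, hw, hY, C.r_add]
    abel
  obtain ⟨h1, h2⟩ := tr_inverse_sub_le C P.eP_pos hg.mat_ge hYsa hN hNe
  rw [← hm] at h1
  refine ⟨h1, ?_⟩
  have he := P.eP_pos
  have h3 := mul_le_mul_of_nonneg_left h2 (sq_nonneg P.eP)
  have e : P.eP ^ 2 * (2 / P.eP ^ 3 * N ^ 2) = 2 / P.eP * N ^ 2 := by field_simp
  simp only [Prm.pot, Prm.R, hm, hw, C.ig_add, C.tr_sub Z, Prm.VG]
  linarith

variable {r : ℕ}

theorem Psi_update (s : Config M X r) (c : Fin r) (v : Col M X) :
    P.Psi C (Function.update s c v) = P.Psi C s + (P.pot C v - P.pot C (s c)) := by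
  classical
  have h : (fun d => P.pot C (Function.update s c v d)) =
      Function.update (fun d => P.pot C (s d)) c (P.pot C v) :=
    funext fun d => Function.apply_update (fun _ => P.pot C) s c v d
  have h1 := Finset.sum_update_of_mem (Finset.mem_univ c) (fun d => P.pot C (s d)) (P.pot C v)
  have h2 := Finset.add_sum_erase Finset.univ (fun d => P.pot C (s d)) (Finset.mem_univ c)
  rw [← h] at h1
  simp only [Prm.Psi, Finset.sdiff_singleton_eq_erase] at h1 h2 ⊢
  linarith

/-- Changing one colour without its activity and budget keeps a state valid. -/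
theorem StateOk.update {s : Config M X r} (hs : StateOk P C s) (c : Fin r) {v : Col M X}
    (hv : v.Ok P C) (ha : v.act = (s c).act) (he : v.ass = (s c).ass) (hb : v.b = (s c).b) :
    StateOk P C (Function.update s c v) := by
  have e : ∀ d, (Function.update s c v d).act = (s d).act ∧
      (Function.update s c v d).ass = (s d).ass ∧ (Function.update s c v d).b = (s d).b := fun d => by
    rcases eq_or_ne d c with rfl | hd
    · rw [Function.update_self]; exact ⟨ha, he, hb⟩
    · rw [Function.update_of_ne hd]; exact ⟨rfl, rfl, rfl⟩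
  have hU : Config.U (Function.update s c v) = Config.U s := by
    simp only [Config.U, (e _).2.1]
  refine ⟨fun d => ?_, by rw [hU]; exact hs.U_01, fun d x => ?_, ?_, fun d x hx => ?_⟩
  · rcases eq_or_ne d c with rfl | hd
    · rw [Function.update_self]; exact hv
    · rw [Function.update_of_ne hd]; exact hs.col d
  · rw [hU, (e d).1]; exact hs.act_le d x
  · rw [hU, ← hs.b_sum]; exact Finset.sum_congr rfl fun d _ => (e d).2.2
  · rw [(e d).2.2]; rw [(e d).1] at hx; exact hs.b_drop d x hx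

private theorem iD_bounds {s : Col M X} (hs : s.Ok P C) (x : X) :
    0 < P.iD s x ∧ P.iD s x ≤ 1 / P.Dmin ∧ P.iD s x * P.Dc s x = 1 := by
  have h := Prm.Dc_pos P s x
  refine ⟨inv_pos.2 h, ?_, inv_mul_cancel₀ h.ne'⟩
  show (P.Dc s x)⁻¹ ≤ _
  rw [one_div]
  exact inv_anti₀ P.Dmin_pos (Prm.Dc_bounds hs x).1

/-- The step sizes for which the moves stay valid, with the constant of the second order. -/
theorem exists_moves (r : ℕ) {δ : ℝ} (hδ : 0 < δ) :
    ∃ ζ > 0, ∀ s : Config M X r, StateOk P C s → (∀ c, P.Good C (s c)) → P.IsMin C s ζ →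
      (∀ c d, ∀ f : C(X, ℝ), (∀ x, 0 ≤ f x ∧ f x ≤ 1) → f * (s c).act = f → f * (s d).act = f →
        P.VW C (s d) (f * P.iD (s d)) ≤ P.VW C (s c) (f * P.iD (s c)) + δ) ∧
      (∀ c, ∀ h : C(X, ℝ), (∀ x, 0 ≤ h x ∧ h x ≤ 1) → P.VW C (s c) h ≤ 2 * C.ig h + δ) ∧
      ∀ c, ∀ f : C(X, ℝ), (∀ x, 0 ≤ f x ∧ f x ≤ 1) →
        P.VW C (s c) ((s c).act * C.K ((s c).G : M) f * P.iD (s c)) ≤ P.VW C (s c) f + δ := by
  have he := P.eP_pos
  have hDm := P.Dmin_pos
  have hΛ := P.Λ_pos
  set B := 1 + (1 + P.Λ ^ 2 + P.Λ ^ 3) / P.Dmin with hB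
  have hB1 : 1 ≤ B := le_add_of_nonneg_right (by positivity)
  have hB0 : 0 < B := by linarith
  have hBD : 1 / P.Dmin ≤ B ∧ (P.Λ ^ 2 + P.Λ ^ 3) / P.Dmin + 1 ≤ B := by
    have h1 : 0 ≤ (P.Λ ^ 2 + P.Λ ^ 3) / P.Dmin := by positivity
    have h2 : 0 ≤ 1 / P.Dmin := by positivity
    have e : B = 1 + 1 / P.Dmin + (P.Λ ^ 2 + P.Λ ^ 3) / P.Dmin := by rw [hB]; ring
    constructor <;> linarith
  set Kc := 4 * B ^ 2 / P.eP + 2 * P.Λ ^ 3 / P.Dmin with hKc
  have hKc0 : 0 ≤ Kc := by positivity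
  set η := min (min 1 (P.b1 / 2)) (min (min (P.margin / B) (P.eP / (2 * B)))
    (δ / (2 * (Kc + 1)))) with hηdef
  have hη : 0 < η := by
    have := P.b1_pos
    have := P.margin_pos
    simp only [hηdef, lt_min_iff]
    exact ⟨⟨one_pos, by positivity⟩, ⟨by positivity, by positivity⟩, by positivity⟩
  have hη1 : η ≤ 1 := (min_le_left _ _).trans (min_le_left _ _)
  have hηb : η ≤ P.b1 / 2 := (min_le_left _ _).trans (min_le_right _ _)
  have hηm : η * B ≤ P.margin :=
    (le_div_iff₀ hB0).1 ((min_le_right _ _).trans ((min_le_left _ _).trans (min_le_left _ _)))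
  have hηe : η * B ≤ P.eP / 2 := by
    have := (le_div_iff₀ (by positivity)).1
      (show η ≤ P.eP / (2 * B) from
        (min_le_right _ _).trans ((min_le_left _ _).trans (min_le_right _ _)))
    linarith
  have hηδ : η * Kc + δ / 2 ≤ δ := by
    have := (le_div_iff₀ (by positivity)).1
      (show η ≤ δ / (2 * (Kc + 1)) from (min_le_right _ _).trans (min_le_right _ _))
    linarith
  refine ⟨η * (δ / 2), by positivity, fun s hs hg hmin => ?_⟩
  -- a change of size at most `η * B` costs at most this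
  have hfin : ∀ {L N : ℝ}, N ≤ 4 * B ^ 2 / P.eP + 2 * P.Λ ^ 3 / P.Dmin →
      0 ≤ η * L + η ^ 2 * N + η * (δ / 2) → -L ≤ δ := fun {L N} hN h => by
    have h0 : 0 ≤ L + η * N + δ / 2 := by
      by_contra hc
      have := mul_neg_of_pos_of_neg hη (not_le.1 hc)
      linarith
    have := mul_le_mul_of_nonneg_left hN hη.le
    linarith
  have hbd : ∀ (c : Fin r) (f : C(X, ℝ)), (∀ x, 0 ≤ f x ∧ f x ≤ 1) → ∀ x,
      |(f * P.iD (s c)) x| ≤ B := fun c f hf x => by
    obtain ⟨h1, h2, _⟩ := iD_bounds (hs.col c) x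
    rw [ContinuousMap.mul_apply, abs_of_nonneg (mul_nonneg (hf x).1 h1.le)]
    calc f x * P.iD (s c) x ≤ 1 * (1 / P.Dmin) := mul_le_mul (hf x).2 h2 h1.le zero_le_one
      _ ≤ B := by rw [one_mul]; exact hBD.1
  have hnorm : ∀ g : C(X, ℝ), ∀ N : ℝ, 0 ≤ N → (∀ x, |g x| ≤ N) → ‖C.r g‖ ≤ N :=
    fun g N hN h => (C.norm_r_le g).trans ((ContinuousMap.norm_le _ hN).2 h)
  refine ⟨fun c d f hf hfc hfd => ?_, fun c h hh => ?_, fun c f hf => ?_⟩
  · rcases eq_or_ne c d with rfl | hcd
    · linarith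
    have hsupp : ∀ (e : Fin r), f * (s e).act = f → ∀ u : ℝ,
        (s e).act * (u • (f * P.iD (s e))) = u • (f * P.iD (s e)) := fun e hfe u => by
      rw [mul_smul_comm, ← mul_assoc, mul_comm _ f, hfe]
    have hsz : ∀ (e : Fin r) (u : ℝ), |u| = η → ∀ x, |(u • (f * P.iD (s e))) x| ≤ η * B :=
      fun e u hu x => by
        rw [ContinuousMap.smul_apply, smul_eq_mul, abs_mul, hu]
        exact mul_le_mul_of_nonneg_left (hbd e f hf x) hη.le
    have hstep : ∀ (e : Fin r), f * (s e).act = f → ∀ u : ℝ, |u| = η →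
        (⟨(s e).act, (s e).ass, (s e).b + u • f, (s e).W + u • (f * P.iD (s e)), (s e).G,
            (s e).Z⟩ : Col M X).Ok P C ∧
          P.pot C (⟨(s e).act, (s e).ass, (s e).b + u • f, (s e).W + u • (f * P.iD (s e)), (s e).G,
              (s e).Z⟩ : Col M X) - P.pot C (s e)
            ≤ u * P.VW C (s e) (f * P.iD (s e)) + η ^ 2 * (2 * B ^ 2 / P.eP) := fun e hfe u hu => by
      have hms := hs.col e
      obtain ⟨hW, hinv⟩ := weight_shift hms (hg e) (hsupp e hfe u)
        fun x => (hsz e u hu x).trans hηm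
      obtain ⟨hpos, hpot⟩ := col_step hms (hg e) (hsupp e hfe u) ((s e).b + u • f) (s e).G (s e).Z
        (Y := C.r (u • (f * P.iD (s e)))) (N := η * B) (by abel) (C.r_isSelfAdjoint _)
        (hnorm _ _ (by positivity) (hsz e u hu)) hηe
      refine ⟨⟨hms.act_01, hms.ass_01, hms.act_ass, fun x hx => ?_, hW, hms.G_nonneg,
        hms.Z_nonneg, hpos, fun x hx => ?_⟩, ?_⟩
      · have h1 := (hg e).low x hx
        have h2 : |u * f x| ≤ η := by
          rw [abs_mul, hu, abs_of_nonneg (hf x).1]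
          exact mul_le_of_le_one_right hη.le (hf x).2
        have h3 := abs_le.1 h2
        simp only [ContinuousMap.add_apply, ContinuousMap.smul_apply, smul_eq_mul]
        linarith
      · have h1 := hms.inv x hx
        have h2 := hinv x hx
        have h3 : (u • (f * P.iD (s e))) x * P.Dc (s e) x = u * f x := by
          simp only [ContinuousMap.smul_apply, ContinuousMap.mul_apply, smul_eq_mul, mul_assoc,
            (iD_bounds hms x).2.2, mul_one]
        simp only [ContinuousMap.add_apply, ContinuousMap.smul_apply, smul_eq_mul] at h2 h3 ⊢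
        linarith
      · rw [sub_self, C.tr_zero, sub_self, mul_zero, zero_add, zero_add, mul_pow,
          C.r_smul, Prm.VG_smul, C.ig_smul] at hpot
        simp only [Prm.VW]
        have : 2 / P.eP * (η ^ 2 * B ^ 2) = η ^ 2 * (2 * B ^ 2 / P.eP) := by ring
        linarith
    obtain ⟨hc1, hc2⟩ := hstep c hfc η (abs_of_pos hη)
    obtain ⟨hd1, hd2⟩ := hstep d hfd (-η) (by rw [abs_neg, abs_of_pos hη])
    set vc : Col M X := ⟨(s c).act, (s c).ass, (s c).b + η • f,
      (s c).W + η • (f * P.iD (s c)), (s c).G, (s c).Z⟩ with hvc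
    set vd : Col M X := ⟨(s d).act, (s d).ass, (s d).b + (-η) • f,
      (s d).W + (-η) • (f * P.iD (s d)), (s d).G, (s d).Z⟩ with hvd
    set u := Function.update (Function.update s c vc) d vd with hu
    have e : ∀ e, (u e).act = (s e).act ∧ (u e).ass = (s e).ass ∧
        (u e).b = (s e).b + (if e = d then (-η) • f else 0) + (if e = c then η • f else 0) :=
      fun e => by
        rcases eq_or_ne e d with rfl | hed
        · simp [hu, hvd, hcd.symm]
        · rcases eq_or_ne e c with rfl | hec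
          · simp [hu, hvc, hed]
          · simp [hu, hed, hec]
    have hU : Config.U u = Config.U s := by simp only [Config.U, (e _).2.1]
    have hok : StateOk P C u := by
      refine ⟨fun e => ?_, by rw [hU]; exact hs.U_01,
        fun e' x => by rw [hU, (e e').1]; exact hs.act_le e' x, ?_, fun e' x hx => ?_⟩
      · rcases eq_or_ne e d with rfl | hed
        · simpa [hu] using hd1
        · rcases eq_or_ne e c with rfl | hec
          · simpa [hu, Function.update_of_ne hed] using hc1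
          · simpa [hu, Function.update_of_ne hed, Function.update_of_ne hec] using hs.col e
      · rw [hU, Finset.sum_congr rfl fun e' _ => (e e').2.2, Finset.sum_add_distrib,
          Finset.sum_add_distrib, hs.b_sum, Finset.sum_ite_eq', Finset.sum_ite_eq']
        simp
      · rw [(e e').1] at hx
        have h1 := hs.b_drop e' x hx
        have h2 : ∀ g : Fin r, e' = g → f * (s g).act = f → f x = 0 := fun g hg' hfg => by
          subst hg'
          have := congrArg (fun k : C(X, ℝ) => k x) hfg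
          simp [hx] at this
          linarith
        rw [(e e').2.2]
        split_ifs with ha hb hb <;> simp
        · exact absurd (ha.symm.trans hb) hcd.symm
        · rw [h2 d ha hfd]; simpa using h1
        · rw [h2 c hb hfc]; simpa using h1
        · exact h1
    have hPsi : P.Psi C u = P.Psi C s + (P.pot C vc - P.pot C (s c)) +
        (P.pot C vd - P.pot C (s d)) := by
      rw [hu, Psi_update, Function.update_of_ne hcd.symm, Psi_update]
    have h := hmin u hok
    have hN : 4 * B ^ 2 / P.eP ≤ 4 * B ^ 2 / P.eP + 2 * P.Λ ^ 3 / P.Dmin :=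
      le_add_of_nonneg_right (by positivity)
    have := hfin (L := P.VW C (s c) (f * P.iD (s c)) - P.VW C (s d) (f * P.iD (s d))) hN (by
      rw [hPsi] at h
      have : η ^ 2 * (4 * B ^ 2 / P.eP) = 2 * (η ^ 2 * (2 * B ^ 2 / P.eP)) := by ring
      linarith)
    linarith
  · have hms := hs.col c
    have hh0 : 0 ≤ h := ContinuousMap.le_def.2 fun x => (hh x).1
    have hY : ‖C.r ((-η) • h)‖ ≤ η * B := hnorm _ _ (by positivity) fun x => by
      rw [ContinuousMap.smul_apply, smul_eq_mul, abs_mul, abs_neg, abs_of_pos hη,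
        abs_of_nonneg (hh x).1]
      exact mul_le_mul_of_nonneg_left ((hh x).2.trans hB1) hη.le
    have hsup : (s c).act * (0 : C(X, ℝ)) = 0 := mul_zero _
    obtain ⟨hpos, hpot⟩ := col_step hms (hg c) hsup (s c).b (s c).G ((s c).Z + η • C.r h)
      (Y := C.r ((-η) • h)) (by rw [C.r_zero, C.r_smul, neg_smul]; abel) (C.r_isSelfAdjoint _)
      hY hηe
    rw [add_zero] at hpos hpot
    have hok := hs.update c (v := ⟨(s c).act, (s c).ass, (s c).b, (s c).W, (s c).G,
      (s c).Z + η • C.r h⟩) ⟨hms.act_01, hms.ass_01, hms.act_ass, hms.act_b, hms.W_mem,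
        hms.G_nonneg, add_nonneg hms.Z_nonneg (smul_nonneg hη.le (C.r_nonneg hh0)), hpos,
        hms.inv⟩ rfl rfl rfl
    have h1 := hmin _ hok
    rw [Psi_update] at h1
    rw [add_sub_cancel_left, C.tr_smul, sub_self, mul_zero, add_zero, C.ig_zero, mul_zero,
      add_zero, C.r_smul, Prm.VG_smul] at hpot
    have h2 := hfin (L := C.ig h - P.VG C (s c) (C.r h)) (N := 2 * B ^ 2 / P.eP)
      (by
        have : (0 : ℝ) ≤ B ^ 2 / P.eP := by positivity
        have : (0 : ℝ) ≤ 2 * P.Λ ^ 3 / P.Dmin := by positivity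
        have : 4 * B ^ 2 / P.eP = 2 * (2 * B ^ 2 / P.eP) := by ring
        have : 2 * B ^ 2 / P.eP = 2 * (B ^ 2 / P.eP) := by ring
        linarith) (by
      have : 2 / P.eP * (η * B) ^ 2 = η ^ 2 * (2 * B ^ 2 / P.eP) := by ring
      rw [show C.tr (C.r h) = C.ig h from rfl] at hpot
      linarith)
    have h3 : P.l * C.ig h ≤ 1 * C.ig h := mul_le_mul_of_nonneg_right P.l_le (C.ig_nonneg hh0)
    simp only [Prm.VW]
    linarith
  · have hms := hs.col c
    have hf0 : 0 ≤ f := ContinuousMap.le_def.2 fun x => (hf x).1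
    set G := (s c).G
    have hF0 := C.r_nonneg hf0
    have hFn : ‖C.r f‖ ≤ 1 := hnorm _ _ zero_le_one fun x => by
      rw [abs_of_nonneg (hf x).1]; exact (hf x).2
    obtain ⟨G', hi, hG', hle, hEr⟩ := exists_inv_step C hms.G_nonneg hΛ.le (hg c).G_le hF0 hFn hη.le
    set k := C.K (G : M) f with hk
    have hk' : k = C.Er ((G : M) * C.r f * G) := by
      rw [hk, SCore.K, (IsSelfAdjoint.of_nonneg hms.G_nonneg).star_eq]
    have hGn : ‖(G : M)‖ ≤ P.Λ := norm_le_of_le_algebraMap₀ hΛ.le hms.G_nonneg (hg c).G_le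
    have hkn : ∀ x, 0 ≤ k x ∧ k x ≤ P.Λ ^ 2 := fun x => by
      refine ⟨?_, ?_⟩
      · rw [hk']
        exact ContinuousMap.le_def.1
          (C.Er_nonneg ((IsSelfAdjoint.of_nonneg hms.G_nonneg).conjugate_nonneg hF0)) x
      · rw [hk']
        refine ((le_abs_self _).trans ((C.Er _).norm_coe_le_norm x)).trans
          ((C.norm_Er_le ((C.r_isSelfAdjoint f).conjugate_self
            (IsSelfAdjoint.of_nonneg hms.G_nonneg))).trans ?_)
        calc ‖(G : M) * C.r f * G‖ ≤ ‖(G : M)‖ * ‖C.r f‖ * ‖(G : M)‖ := norm_mul₃_le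
          _ ≤ P.Λ * 1 * P.Λ := by gcongr
          _ = P.Λ ^ 2 := by ring
    set h1f := (s c).act * k * P.iD (s c) with hh1
    set h2f := (s c).act * P.iD (s c) with hh2
    set dl := (-η) • h1f + (η ^ 2 * P.Λ ^ 3) • h2f with hdl
    have hsupd : (s c).act * dl = dl := by
      ext x
      rcases hms.act_01 x with hx | hx <;> simp [hdl, hh1, hh2, hx]
    have hdlb : ∀ x, |dl x| ≤ η * ((P.Λ ^ 2 + P.Λ ^ 3) / P.Dmin) := fun x => by
      obtain ⟨hi0, hi1, _⟩ := iD_bounds hms x
      simp only [hdl, hh1, hh2, ContinuousMap.add_apply, ContinuousMap.smul_apply,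
        ContinuousMap.mul_apply, smul_eq_mul]
      rcases hms.act_01 x with hx | hx <;> rw [hx]
      · simp only [zero_mul, mul_zero, add_zero, abs_zero]; positivity
      · simp only [one_mul]
        have a1 : k x * P.iD (s c) x ≤ P.Λ ^ 2 * (1 / P.Dmin) :=
          mul_le_mul (hkn x).2 hi1 hi0.le (by positivity)
        have a2 : η ^ 2 * P.Λ ^ 3 * P.iD (s c) x ≤ η * (P.Λ ^ 3 * (1 / P.Dmin)) := by
          rw [mul_assoc]
          refine mul_le_mul ?_ (mul_le_mul_of_nonneg_left hi1 (by positivity)) (by positivity) hη.le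
          exact pow_le_of_le_one hη.le hη1 two_ne_zero
        have a3 := mul_le_mul_of_nonneg_left a1 hη.le
        have a4 := mul_nonneg hη.le (mul_nonneg (hkn x).1 hi0.le)
        have a5 : 0 ≤ η ^ 2 * P.Λ ^ 3 * P.iD (s c) x := by positivity
        have a6 : η * ((P.Λ ^ 2 + P.Λ ^ 3) / P.Dmin) =
            η * (P.Λ ^ 2 * (1 / P.Dmin)) + η * (P.Λ ^ 3 * (1 / P.Dmin)) := by ring
        exact abs_le.2 ⟨by linarith, by linarith⟩
    have hdlB : ∀ x, |dl x| ≤ η * B := fun x =>
      (hdlb x).trans (mul_le_mul_of_nonneg_left (by linarith [hBD.2]) hη.le)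
    obtain ⟨hW, hinv⟩ := weight_shift hms (hg c) hsupd fun x => (hdlB x).trans hηm
    have hYn : ‖η • C.r f + C.r dl‖ ≤ η * B := by
      refine (norm_add_le _ _).trans ?_
      have h1 : ‖η • C.r f‖ ≤ η * 1 := by
        rw [norm_smul, Real.norm_of_nonneg hη.le]
        exact mul_le_mul_of_nonneg_left hFn hη.le
      have h2 := hnorm dl _ (by positivity) hdlb
      have h3 := mul_le_mul_of_nonneg_left hBD.2 hη.le
      linarith
    obtain ⟨hpos, hpot⟩ := col_step hms (hg c) hsupd (s c).b G' (s c).Z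
      (Y := η • C.r f + C.r dl) (by rw [hi]; abel)
      (((IsSelfAdjoint.all η).smul (C.r_isSelfAdjoint f)).add (C.r_isSelfAdjoint _)) hYn hηe
    have hok := hs.update c (v := ⟨(s c).act, (s c).ass, (s c).b, (s c).W + dl, G', (s c).Z⟩)
      ⟨hms.act_01, hms.ass_01, hms.act_ass, hms.act_b, hW, hG', hms.Z_nonneg, hpos,
        fun x hx => ?_⟩ rfl rfl rfl
    swap
    · have a1 := hms.inv x hx
      have a2 := hinv x hx
      have a3 := hEr x
      have a4 : dl x * P.Dc (s c) x = -η * k x + η ^ 2 * P.Λ ^ 3 := by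
        simp only [hdl, hh1, hh2, ContinuousMap.add_apply, ContinuousMap.smul_apply,
          ContinuousMap.mul_apply, smul_eq_mul, hx, one_mul]
        linear_combination (-η * k x + η ^ 2 * P.Λ ^ 3) * (iD_bounds hms x).2.2
      have a5 : C.Er ((G : M) * C.r f * G) x = k x := by rw [hk']
      rw [a5] at a3
      show (s c).b x + 2 * P.b1 ≤ FP P.κ (1 - ((s c).W + dl) x) - C.Er (G' : M) x
      linarith
    have h1 := hmin _ hok
    rw [Psi_update] at h1
    have hh2le : P.VW C (s c) h2f ≤ 2 / P.Dmin := by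
      have hn2 : ∀ x, |h2f x| ≤ 1 / P.Dmin := fun x => by
        obtain ⟨hi0, hi1, _⟩ := iD_bounds hms x
        rcases hms.act_01 x with hx | hx
        · simp [hh2, hx]; exact hDm.le
        · simp [hh2, hx, abs_of_pos hi0]; simpa using hi1
      have a1 := (Prm.VG_le_norm hms (hg c) (C.r_isSelfAdjoint h2f)).trans
        (hnorm _ _ (by positivity) hn2)
      have a2 : C.ig h2f ≤ 1 / P.Dmin := C.ig_le_of_le fun x => (le_abs_self _).trans (hn2 x)
      have a3 : P.l * C.ig h2f ≤ 1 / P.Dmin := by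
        rcases le_total 0 (C.ig h2f) with h | h
        · exact (mul_le_of_le_one_left h P.l_le).trans a2
        · exact (mul_nonpos_of_nonneg_of_nonpos P.l_pos.le h).trans (by positivity)
      have e : 2 / P.Dmin = 1 / P.Dmin + 1 / P.Dmin := by ring
      rw [Prm.VW, e]
      linarith
    have hν : P.ν * (C.tr (G' : M) - C.tr (G : M)) ≤ 0 :=
      mul_nonpos_of_nonneg_of_nonpos P.ν_pos.le (sub_nonpos.2 (C.tr_mono hle))
    have hVWdl : P.VG C (s c) (C.r dl) + P.l * C.ig dl =
        -η * P.VW C (s c) h1f + η ^ 2 * P.Λ ^ 3 * P.VW C (s c) h2f := by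
      rw [← Prm.VW, hdl, Prm.VW_add, Prm.VW_smul, Prm.VW_smul]
    have hm2 := mul_le_mul_of_nonneg_left hh2le (show 0 ≤ η ^ 2 * P.Λ ^ 3 by positivity)
    rw [sub_self, C.tr_zero, zero_add, Prm.VG_add, Prm.VG_smul] at hpot
    have h2 := hfin (L := P.VG C (s c) (C.r f) - P.VW C (s c) h1f)
      (N := 2 * B ^ 2 / P.eP + 2 * P.Λ ^ 3 / P.Dmin)
      (by
        have : (0 : ℝ) ≤ B ^ 2 / P.eP := by positivity
        have : 4 * B ^ 2 / P.eP = 4 * (B ^ 2 / P.eP) := by ring
        have : 2 * B ^ 2 / P.eP = 2 * (B ^ 2 / P.eP) := by ring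
        linarith) (by
      have : 2 / P.eP * (η * B) ^ 2 = η ^ 2 * (2 * B ^ 2 / P.eP) := by ring
      have : η ^ 2 * P.Λ ^ 3 * (2 / P.Dmin) = η ^ 2 * (2 * P.Λ ^ 3 / P.Dmin) := by ring
      linarith)
    have h3 := mul_nonneg P.l_pos.le (C.ig_nonneg hf0)
    simp only [Prm.VW] at h2 ⊢
    linarith

end Vale.Agent.P078.AllMasa
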