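import Vale.Agent.P078.AllMasa.Profile

/-! Tangent lines of the profile and first order changes of the resolvent. -/

namespace Vale.Agent.P078.AllMasa

set_option linter.unusedSectionVars false

open Filter Topology ComplexOrder
open Vale.Agent.P078.Tracial

/-- The profile lies above its tangent lines. -/
theorem FP_tangent {κ ξ ξ' : ℝ} (hκ : 0 ≤ κ) (hξ : 0 < ξ) (hξ' : 0 < ξ') :
    FP κ ξ + (ξ - ξ') * DP κ ξ ≤ FP κ ξ' := by
  obtain ⟨s, hs, hs0⟩ : ∃ s, 0 < s ∧ ξ = s ^ 2 :=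
    ⟨√ξ, Real.sqrt_pos.2 hξ, (Real.sq_sqrt hξ.le).symm⟩
  obtain ⟨u, hu, hu0⟩ : ∃ u, 0 < u ∧ ξ' = u ^ 2 :=
    ⟨√ξ', Real.sqrt_pos.2 hξ', (Real.sq_sqrt hξ'.le).symm⟩
  subst hs0 hu0
  unfold FP DP
  rw [Real.sqrt_sq hs.le, Real.sqrt_sq hu.le, ← sub_nonneg]
  have e : 1 / u ^ 2 + κ / ((u ^ 2) ^ 2 * u) - (1 / s ^ 2 + κ / ((s ^ 2) ^ 2 * s) +
      (s ^ 2 - u ^ 2) * (1 / (s ^ 2) ^ 2 + 5 / 2 * (κ / ((s ^ 2) ^ 3 * s)))) =
      (u ^ 2 - s ^ 2) ^ 2 / (u ^ 2 * s ^ 4) + κ / 2 * ((s - u) ^ 2 *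
        (2 * s ^ 5 + 4 * s ^ 4 * u + 6 * s ^ 3 * u ^ 2 + 8 * s ^ 2 * u ^ 3 + 10 * s * u ^ 4
          + 5 * u ^ 5) / (u ^ 5 * s ^ 7)) := by
    field_simp
    ring
  rw [e]
  positivity

variable {M X : Type} [CStarAlgebra M] [PartialOrder M] [StarOrderedRing M]
variable [TopologicalSpace X] [CompactSpace X] [T2Space X] [TotallyDisconnectedSpace X]

theorem norm_le_of_le_algebraMap₀ {a : M} {c : ℝ} (hc : 0 ≤ c) (h0 : 0 ≤ a)
    (h : a ≤ algebraMap ℝ M c) : ‖a‖ ≤ c :=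
  (CStarAlgebra.norm_le_iff_le_algebraMap a hc h0).2 h

theorem SCore.tr_le_norm (C : SCore M X) {z : M} (hz : IsSelfAdjoint z) : C.tr z ≤ ‖z‖ := by
  simpa [C.tr_algebraMap] using C.tr_mono hz.le_algebraMap_norm_self

/-- The resolvent of a strictly positive element to first order. -/
theorem tr_inverse_sub_le (C : SCore M X) {A Y : M} {e b : ℝ} (he : 0 < e)
    (hA : algebraMap ℝ M e ≤ A) (hY : IsSelfAdjoint Y) (hb : ‖Y‖ ≤ b) (hbe : b ≤ e / 2) :
    IsStrictlyPositive (A - Y) ∧ C.tr (Ring.inverse (A - Y)) ≤ C.tr (Ring.inverse A)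
      + C.tr (Ring.inverse A * Y * Ring.inverse A) + 2 / e ^ 3 * b ^ 2 := by
  have hsp : ∀ c : ℝ, 0 < c → IsStrictlyPositive (algebraMap ℝ M c) := fun c hc =>
    ⟨algebraMap_nonneg M hc.le, (Ne.isUnit hc.ne').map (algebraMap ℝ M)⟩
  have hinv : ∀ (c : ℝ) (B : M), 0 < c → algebraMap ℝ M c ≤ B → IsStrictlyPositive B ∧
      0 ≤ Ring.inverse B ∧ ‖Ring.inverse B‖ ≤ c⁻¹ := fun c B hc h => by
    have hB : IsStrictlyPositive B := IsStrictlyPositive.of_le (hsp c hc) h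
    have h1 := CStarAlgebra.ringInverse_le_ringInverse h (hsp c hc)
    rw [show algebraMap ℝ M c = ((Units.map (algebraMap ℝ M).toMonoidHom (Units.mk0 c hc.ne') :
      Mˣ) : M) from rfl, Ring.inverse_unit] at h1
    exact ⟨hB, hB.ringInverse.nonneg,
      norm_le_of_le_algebraMap₀ (inv_nonneg.2 hc.le) hB.ringInverse.nonneg (by simpa using h1)⟩
  obtain ⟨hAp, hR0, hRn⟩ := hinv e A he hA
  have hB : algebraMap ℝ M (e / 2) ≤ A - Y := by
    have h1 := hY.le_algebraMap_norm_self.trans (algebraMap_mono M (hb.trans hbe))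
    refine le_trans ?_ (sub_le_sub hA h1)
    rw [← map_sub]
    exact algebraMap_mono M (by linarith)
  obtain ⟨hBp, hR'0, hR'n⟩ := hinv (e / 2) (A - Y) (by linarith) hB
  refine ⟨hBp, ?_⟩
  set R := Ring.inverse A with hR
  set R' := Ring.inverse (A - Y) with hR'
  have hRA : R * A = 1 := Ring.inverse_mul_cancel A hAp.isUnit
  have hAR : A * R = 1 := Ring.mul_inverse_cancel A hAp.isUnit
  have hR'B : R' * (A - Y) = 1 := Ring.inverse_mul_cancel _ hBp.isUnit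
  have hBR' : (A - Y) * R' = 1 := Ring.mul_inverse_cancel _ hBp.isUnit
  have d1 : R' = R + R * Y * R' := by
    calc R' = R * A * R' := by rw [hRA, one_mul]
      _ = R * ((A - Y) * R') + R * Y * R' := by
          simp only [sub_mul, mul_sub, mul_assoc]; abel
      _ = R + R * Y * R' := by rw [hBR', mul_one]
  have d2 : R' = R + R' * Y * R := by
    calc R' = R' * (A * R) := by rw [hAR, mul_one]
      _ = R' * (A - Y) * R + R' * Y * R := by
          simp only [sub_mul, mul_sub, mul_assoc]; abel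
      _ = R + R' * Y * R := by rw [hR'B, one_mul]
  have d3 : R' = R + R * Y * R + R * Y * R' * Y * R := by
    conv_lhs => rw [d1, d2]
    simp only [mul_add, mul_assoc, add_assoc]
  have hsa : IsSelfAdjoint (R * Y * R' * Y * R) := by
    show star _ = _
    simp only [star_mul, hY.star_eq, (IsSelfAdjoint.of_nonneg hR0).star_eq,
      (IsSelfAdjoint.of_nonneg hR'0).star_eq, mul_assoc]
  have hn : ‖R * Y * R' * Y * R‖ ≤ e⁻¹ * b * (e / 2)⁻¹ * b * e⁻¹ := by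
    have hb0 : 0 ≤ b := (norm_nonneg Y).trans hb
    calc ‖R * Y * R' * Y * R‖ ≤ ‖R‖ * ‖Y‖ * ‖R'‖ * ‖Y‖ * ‖R‖ :=
          (norm_mul_le _ _).trans (mul_le_mul_of_nonneg_right ((norm_mul_le _ _).trans
            (mul_le_mul_of_nonneg_right norm_mul₃_le (norm_nonneg _))) (norm_nonneg _))
      _ ≤ _ := by gcongr
  have h1 := (C.tr_le_norm hsa).trans hn
  have e1 : e⁻¹ * b * (e / 2)⁻¹ * b * e⁻¹ = 2 / e ^ 3 * b ^ 2 := by field_simp
  calc C.tr R' = C.tr (R + R * Y * R + R * Y * R' * Y * R) := congrArg C.tr d3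
    _ ≤ _ := by rw [C.tr_add, C.tr_add]; linarith

/-- A larger inverse lowers the resolvent, to second order by a sandwich. -/
theorem exists_inv_step (C : SCore M X) {G : Mˣ} (hG : 0 ≤ (G : M)) {Λ : ℝ} (hΛ : 0 ≤ Λ)
    (hGΛ : (G : M) ≤ algebraMap ℝ M Λ) {F : M} (hF : 0 ≤ F) (hFn : ‖F‖ ≤ 1) {η : ℝ} (hη : 0 ≤ η) :
    ∃ G' : Mˣ, (↑G'⁻¹ : M) = ↑G⁻¹ + η • F ∧ 0 ≤ (G' : M) ∧ (G' : M) ≤ G ∧
      ∀ x, C.Er (G' : M) x ≤ C.Er (G : M) x - η * C.Er ((G : M) * F * G) x + η ^ 2 * Λ ^ 3 := by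
  have hGn : ‖(G : M)‖ ≤ Λ := norm_le_of_le_algebraMap₀ hΛ hG hGΛ
  have htF : 0 ≤ η • F := smul_nonneg hη hF
  have hGi := Core.units_inv_nonneg hG
  have hsum : (↑G⁻¹ : M) ≤ ↑G⁻¹ + η • F := le_add_of_nonneg_right htF
  have hu : IsUnit ((↑G⁻¹ : M) + η • F) :=
    CStarAlgebra.isUnit_of_le (↑G⁻¹ : M) hsum (G⁻¹.isUnit.isStrictlyPositive hGi)
  set G' : Mˣ := hu.unit⁻¹ with hG'def
  have hi : (↑G'⁻¹ : M) = ↑G⁻¹ + η • F := by rw [hG'def, inv_inv, IsUnit.unit_spec]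
  have hG' : 0 ≤ (G' : M) :=
    Core.units_inv_nonneg (G := hu.unit) (by rw [IsUnit.unit_spec]; exact add_nonneg hGi htF)
  have hle : (G' : M) ≤ G := by
    have h' := CStarAlgebra.inv_le_inv (a := G⁻¹) (b := G'⁻¹) hGi (by rw [hi]; exact hsum)
    rwa [inv_inv, inv_inv] at h'
  have hG'n : ‖(G' : M)‖ ≤ Λ :=
    (CStarAlgebra.norm_le_norm_of_nonneg_of_le hG' hle).trans hGn
  refine ⟨G', hi, hG', hle, fun x => ?_⟩
  have d1 : (G' : M) = G - (G : M) * (η • F) * G' := by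
    have : (G : M) * (↑G'⁻¹ : M) * G' = G := by rw [mul_assoc, Units.inv_mul, mul_one]
    rw [hi, mul_add, add_mul, Units.mul_inv, one_mul] at this
    exact eq_sub_of_add_eq this
  have d2 : (G' : M) = G - (G' : M) * (η • F) * G := by
    have : (G' : M) * (↑G'⁻¹ : M) * G = G := by rw [Units.mul_inv, one_mul]
    rw [hi, mul_add, add_mul, mul_assoc (G' : M) (↑G⁻¹ : M), Units.inv_mul, mul_one] at this
    exact eq_sub_of_add_eq this
  have d3 : (G' : M) = G - η • ((G : M) * F * G) + η ^ 2 • ((G : M) * F * G' * F * G) := by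
    conv_lhs => rw [d1, d2]
    simp only [mul_sub, mul_smul_comm, smul_mul_assoc, smul_smul, mul_assoc, sq]
    abel
  have hsa : IsSelfAdjoint ((G : M) * F * G' * F * G) := by
    show star _ = _
    simp only [star_mul, (IsSelfAdjoint.of_nonneg hF).star_eq,
      (IsSelfAdjoint.of_nonneg hG).star_eq, (IsSelfAdjoint.of_nonneg hG').star_eq, mul_assoc]
  have hn : ‖(G : M) * F * G' * F * G‖ ≤ Λ ^ 3 := by
    calc ‖(G : M) * F * G' * F * G‖ ≤ ‖(G : M)‖ * ‖F‖ * ‖(G' : M)‖ * ‖F‖ * ‖(G : M)‖ :=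
          (norm_mul_le _ _).trans (mul_le_mul_of_nonneg_right ((norm_mul_le _ _).trans
            (mul_le_mul_of_nonneg_right norm_mul₃_le (norm_nonneg _))) (norm_nonneg _))
      _ ≤ Λ * 1 * Λ * 1 * Λ := by gcongr
      _ = Λ ^ 3 := by ring
  have h1 := (le_abs_self _).trans
    (((C.Er ((G : M) * F * G' * F * G)).norm_coe_le_norm x).trans ((C.norm_Er_le hsa).trans hn))
  conv_lhs => rw [d3]
  rw [C.Er_add, C.Er_sub, C.Er_smul, C.Er_smul]
  simp only [ContinuousMap.add_apply, ContinuousMap.sub_apply, ContinuousMap.smul_apply,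
    smul_eq_mul]
  have := mul_le_mul_of_nonneg_left h1 (sq_nonneg η)
  linarith

end Vale.Agent.P078.AllMasa
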